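import Vale.Agent.P359.Mom.Pins

/-!
# P359: from `GapPin` to the gap of the complex Hamiltonian above the Laughlin state
-/

noncomputable section

open Finset Function Filter

namespace Vale.Agent.P359.Gap

open Upper Kernel Mom

variable {N Q : ℕ}

/-- Antisymmetry of a complex state. -/
def IsFermion (ψ : Orbs N Q → ℂ) : Prop :=
  ∀ (π : Equiv.Perm (Fin N)) (x : Orbs N Q), ψ (x ∘ π) = ((π.sign : ℤ) : ℂ) * ψ x

/-- The amplitude of a complex state along a pair vector in particles `i`, `j`. -/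
def pairAmp (ψ : Orbs N Q → ℂ) (i j : Fin N) (s : ℕ) (x : Orbs N Q) : ℂ :=
  ∑ k, ∑ l, (pairVec Q s k l : ℂ) * ψ (update (update x i k) j l)

/-- `⟨ψ, H ψ⟩`: for each pair `i < j` the squared norm of the projection to total spin `Q - 1`. -/
def expect (ψ : Orbs N Q → ℂ) : ℝ :=
  ∑ i : Fin N, ∑ j : Fin N, if i < j then
    ∑ s ∈ range (2 * Q + 1), ∑ x : Orbs N Q,
      (if x i = 0 ∧ x j = 0 then ‖pairAmp ψ i j s x‖ ^ 2 / pairNorm Q s else 0)
  else 0

/-- The squared norm. -/
def sqNorm (ψ : Orbs N Q → ℂ) : ℝ := ∑ x, ‖ψ x‖ ^ 2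

/-- The inner product with the Laughlin vector, whose coefficients are real. -/
def overlap (ψ : Orbs N (3 * (N - 1)) → ℂ) : ℂ := ∑ x, (laughlinState N x : ℂ) * ψ x

/-- `⟨ψ, (I - P) ψ⟩`, `P` the orthogonal projection to the Laughlin vector. -/
def offLaughlin (ψ : Orbs N (3 * (N - 1)) → ℂ) : ℝ :=
  sqNorm ψ - ‖overlap ψ‖ ^ 2 / normSq (laughlinState N)

lemma normSq_laughlin_pos (N : ℕ) : 0 < normSq (laughlinState N) :=
  sum_pos' (fun _ _ => sq_nonneg _) ⟨stair N, mem_univ _, by
    have := laughlin_stair_pos N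
    positivity⟩

lemma pairAmp_re (ψ : Orbs N Q → ℂ) (i j : Fin N) (s : ℕ) (x : Orbs N Q) :
    (pairAmp ψ i j s x).re = amp (fun y => (ψ y).re) i j s x := by
  simp [pairAmp, amp, Complex.re_sum]

lemma pairAmp_im (ψ : Orbs N Q → ℂ) (i j : Fin N) (s : ℕ) (x : Orbs N Q) :
    (pairAmp ψ i j s x).im = amp (fun y => (ψ y).im) i j s x := by
  simp [pairAmp, amp, Complex.im_sum]

lemma norm_sq_eq (z : ℂ) : ‖z‖ ^ 2 = z.re ^ 2 + z.im ^ 2 := by
  rw [Complex.sq_norm, Complex.normSq_apply]; ring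

lemma expect_eq (ψ : Orbs N Q → ℂ) :
    expect ψ = energy (fun y => (ψ y).re) + energy (fun y => (ψ y).im) := by
  rw [expect, energy, energy, ← sum_add_distrib]
  refine sum_congr rfl fun i _ => ?_
  rw [← sum_add_distrib]
  refine sum_congr rfl fun j _ => ?_
  split_ifs with h
  · rw [← sum_add_distrib]
    refine sum_congr rfl fun s _ => ?_
    rw [← sum_add_distrib]
    refine sum_congr rfl fun x _ => ?_
    split_ifs
    · rw [norm_sq_eq, pairAmp_re, pairAmp_im]; ring
    · simp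
  · simp

lemma fermionic_re {ψ : Orbs N Q → ℂ} (h : IsFermion ψ) : IsFermionic (fun y => (ψ y).re) := by
  intro π x
  show (ψ (x ∘ π)).re = _
  rw [h π x]; simp

lemma fermionic_im {ψ : Orbs N Q → ℂ} (h : IsFermion ψ) : IsFermionic (fun y => (ψ y).im) := by
  intro π x
  show (ψ (x ∘ π)).im = _
  rw [h π x]; simp

/-- Real states: the gap holds after removing the Laughlin component. -/
lemma real_gap {δ : ℝ} {m : ℕ}
    (hsq : ∀ φ : Orbs m (3 * (m - 1)) → ℝ, IsFermionic φ → δ * energy φ ≤ normSq (ham φ))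
    {φ : Orbs m (3 * (m - 1)) → ℝ} (hφ : IsFermionic φ) :
    δ * (normSq φ - (∑ y, laughlinState m y * φ y) ^ 2 / normSq (laughlinState m))
      ≤ energy φ := by
  set n := normSq (laughlinState m) with hn
  set a := (∑ y, laughlinState m y * φ y) with ha
  have hn0 : 0 < n := normSq_laughlin_pos m
  set χ := φ + (-(a / n)) • laughlinState m with hχ
  have hfχ : IsFermionic χ := by
    intro e y
    simp only [hχ, Pi.add_apply, Pi.smul_apply, smul_eq_mul, hφ e y, laughlin_fermionic m e y]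
    ring
  have hnL : ∑ y, laughlinState m y * laughlinState m y = n := by
    simp only [hn, normSq, sq]
  have horth : ∑ y, laughlinState m y * χ y = 0 := by
    simp only [hχ, Pi.add_apply, Pi.smul_apply, smul_eq_mul, mul_add, sum_add_distrib,
      mul_left_comm _ (-(a / n)), ← mul_sum, hnL, ← ha]
    field_simp
    ring
  have hN : normSq χ = normSq φ - a ^ 2 / n := by
    have : ∀ y, χ y ^ 2 = φ y ^ 2 + 2 * (-(a / n)) * (laughlinState m y * φ y)
        + (-(a / n)) ^ 2 * laughlinState m y ^ 2 := fun y => by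
      simp only [hχ, Pi.add_apply, Pi.smul_apply, smul_eq_mul]; ring
    simp only [normSq, this, sum_add_distrib, ← mul_sum]
    rw [← ha, show ∑ y, laughlinState m y ^ 2 = n from rfl]
    field_simp
    ring
  have hE : energy χ = energy φ := by
    have hL : ∀ i j : Fin m, i < j → ∀ s x, amp χ i j s x = amp φ i j s x := by
      intro i j hij s x
      rw [hχ, amp_add_smul, amp_laughlin hij.ne]; ring
    refine sum_congr rfl fun i _ => sum_congr rfl fun j _ => ?_
    split_ifs with h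
    · refine sum_congr rfl fun s _ => sum_congr rfl fun x _ => ?_
      rw [hL i j h]
    · rfl
  have := gap_of_ham_sq hsq hfχ horth
  rwa [hN, hE] at this

lemma offLaughlin_eq (ψ : Orbs N (3 * (N - 1)) → ℂ) :
    offLaughlin ψ =
      (normSq (fun y => (ψ y).re)
          - (∑ y, laughlinState N y * (ψ y).re) ^ 2 / normSq (laughlinState N))
        + (normSq (fun y => (ψ y).im)
          - (∑ y, laughlinState N y * (ψ y).im) ^ 2 / normSq (laughlinState N)) := by
  have h1 : sqNorm ψ = normSq (fun y => (ψ y).re) + normSq (fun y => (ψ y).im) := by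
    simp only [sqNorm, normSq, norm_sq_eq, sum_add_distrib]
  have h2 : ‖overlap ψ‖ ^ 2 = (∑ y, laughlinState N y * (ψ y).re) ^ 2
      + (∑ y, laughlinState N y * (ψ y).im) ^ 2 := by
    rw [norm_sq_eq]; simp [overlap, Complex.re_sum, Complex.im_sum]
  rw [offLaughlin, h1, h2]; ring

/-- The gap at filling one third. -/
theorem uniformGap (hg : GapPin) :
    ∃ δ : ℝ, 0 < δ ∧ ∃ N₀ : ℕ, ∀ N : ℕ, N₀ ≤ N →
      (IsFermion (fun x => (laughlinState N x : ℂ)) ∧ 0 < normSq (laughlinState N) ∧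
        expect (fun x => (laughlinState N x : ℂ)) = 0) ∧
      ∀ ψ : Orbs N (3 * (N - 1)) → ℂ, IsFermion ψ → δ * offLaughlin ψ ≤ expect ψ := by
  obtain ⟨δ, hδ, h⟩ := hg
  obtain ⟨Q₀, hQ⟩ := eventually_atTop.1 h
  refine ⟨δ, hδ, Q₀ + 4, fun N hN => ⟨⟨?_, normSq_laughlin_pos N, ?_⟩, fun ψ hψ => ?_⟩⟩
  · intro π x
    simp only [laughlin_fermionic N π x, Complex.ofReal_mul, Complex.ofReal_intCast]
  · rw [expect_eq]
    simp only [Complex.ofReal_re, Complex.ofReal_im, energy_laughlin, zero_add]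
    simp [energy, amp]
  · obtain ⟨k, rfl⟩ : ∃ k, N = k + 4 := ⟨N - 4, by omega⟩
    have hsq := hQ (3 * (k + 4 - 1)) (by omega) k
    rw [offLaughlin_eq, expect_eq, mul_add]
    exact add_le_add (real_gap hsq (fermionic_re hψ)) (real_gap hsq (fermionic_im hψ))

end Vale.Agent.P359.Gap
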