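import Vale.Agent.P359.Kernel.Laughlin

/-!
# P359: at `Q = 3 (m - 1)` the zero energy fermionic states are the multiples of the Laughlin vector

If `φ` has zero amplitudes, look at a configuration of maximal `∑ k²` in its support. Two
orbitals at distance `≤ 2` would leave a single term in the amplitude equation of their sum, so all
gaps are `≥ 3` and, inside `[0, 3 (m - 1)]`, the configuration is a permuted staircase. Hence `φ`
is determined by its value on the staircase.
-/

noncomputable section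

open Function Equiv

namespace Vale.Agent.P359.Kernel

open Upper

variable {m Q : ℕ}

/-- The Laughlin state of `m` particles. -/
abbrev laughlinState (m : ℕ) : Orbs m (3 * (m - 1)) → ℝ := laughlin

/-- The staircase `0, 3, …, 3 (m - 1)`. -/
def stair (m : ℕ) : Orbs m (3 * (m - 1)) := fun i => ⟨3 * (i : ℕ), by have := i.2; omega⟩

lemma laughlin_stair_pos (m : ℕ) : laughlinState m (stair m) ≠ 0 :=
  laughlin_stair_ne rfl _ fun _ => rfl

lemma laughlin_fermionic (m : ℕ) : IsFermionic (laughlinState m) := fun e x => laughlin_perm e x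

lemma amp_laughlin {i j : Fin m} (hij : i ≠ j) (s : ℕ) (x : Orbs m (3 * (m - 1))) :
    amp (laughlinState m) i j s x = 0 :=
  laughlin_contract rfl hij s x

lemma energy_laughlin (m : ℕ) : energy (laughlinState m) = 0 := by
  refine Finset.sum_eq_zero fun i _ => Finset.sum_eq_zero fun j _ => ?_
  split_ifs with hij
  · refine Finset.sum_eq_zero fun s _ => Finset.sum_eq_zero fun x _ => ?_
    rw [amp_laughlin hij.ne]
    simp
  · rfl

lemma energy_nonneg (ψ : Orbs m Q → ℝ) : 0 ≤ energy ψ := by
  refine Finset.sum_nonneg fun i _ => Finset.sum_nonneg fun j _ => ?_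
  split_ifs
  · refine Finset.sum_nonneg fun s _ => Finset.sum_nonneg fun x _ => ?_
    split_ifs
    · exact div_nonneg (sq_nonneg _) (Finset.sum_nonneg fun _ _ => Finset.sum_nonneg fun _ _ =>
        sq_nonneg _)
    · rfl
  · rfl

lemma amp_update (ψ : Orbs m Q → ℝ) {i j : Fin m} (hij : i ≠ j) (s : ℕ) (x : Orbs m Q)
    (a b : Fin (Q + 1)) : amp ψ i j s (update (update x i a) j b) = amp ψ i j s x := by
  unfold amp
  refine Finset.sum_congr rfl fun k _ => Finset.sum_congr rfl fun l _ => ?_
  congr 2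
  funext p
  by_cases hpj : p = j
  · subst hpj; simp
  by_cases hpi : p = i
  · subst hpi; simp [update_of_ne hpj]
  · simp [update_of_ne hpj, update_of_ne hpi]

/-- Zero energy means that all pair amplitudes vanish. -/
lemma amp_eq_zero_of_energy {ψ : Orbs m Q → ℝ} (he : energy ψ = 0) {i j : Fin m} (hij : i < j)
    (s : ℕ) (x : Orbs m Q) : amp ψ i j s x = 0 := by
  by_contra hne
  obtain ⟨k, -, hk⟩ := Finset.exists_ne_zero_of_sum_ne_zero hne
  obtain ⟨l, -, hl⟩ := Finset.exists_ne_zero_of_sum_ne_zero hk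
  have hpv : pairVec Q s k l ≠ 0 := fun h => hl (by simp [h])
  have hs : s ∈ Finset.range (2 * Q + 1) := by
    have : (k : ℕ) + l = s := by
      by_contra h; exact hpv (if_neg h)
    have := k.2; have := l.2
    rw [Finset.mem_range]; omega
  have hn : 0 < pairNorm Q s :=
    Finset.sum_pos' (fun _ _ => Finset.sum_nonneg fun _ _ => sq_nonneg _)
      ⟨k, Finset.mem_univ _, Finset.sum_pos' (fun _ _ => sq_nonneg _)
        ⟨l, Finset.mem_univ _, by positivity⟩⟩
  set x0 := update (update x i 0) j 0 with hx0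
  have hterm : 0 < amp ψ i j s x0 ^ 2 / pairNorm Q s := by
    rw [hx0, amp_update ψ hij.ne]
    positivity
  have hpos : 0 < energy ψ := by
    refine Finset.sum_pos' (fun p _ => Finset.sum_nonneg fun q _ => ?_)
      ⟨i, Finset.mem_univ _, Finset.sum_pos' (fun q _ => ?_) ⟨j, Finset.mem_univ _, ?_⟩⟩
    rotate_right
    · rw [if_pos hij]
      refine Finset.sum_pos' (fun t _ => Finset.sum_nonneg fun y _ => ?_)
        ⟨s, hs, Finset.sum_pos' (fun y _ => ?_) ⟨x0, Finset.mem_univ _, ?_⟩⟩
      rotate_right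
      · rwa [if_pos ⟨by simp [hx0, update_of_ne hij.ne], by simp [hx0]⟩]
      all_goals
        split_ifs
        · exact div_nonneg (sq_nonneg _) (Finset.sum_nonneg fun _ _ => Finset.sum_nonneg fun _ _ =>
            sq_nonneg _)
        · rfl
    all_goals
      split_ifs
      · refine Finset.sum_nonneg fun t _ => Finset.sum_nonneg fun y _ => ?_
        split_ifs
        · exact div_nonneg (sq_nonneg _) (Finset.sum_nonneg fun _ _ => Finset.sum_nonneg fun _ _ =>
            sq_nonneg _)
        · rfl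
      · rfl
  linarith

/-- An extremal configuration of the support has all gaps at least three. -/
lemma gap_of_extremal {φ : Orbs m Q → ℝ} (hf : IsFermionic φ)
    (hamp : ∀ i j : Fin m, i < j → ∀ s x, amp φ i j s x = 0) {x : Orbs m Q} (hx : φ x ≠ 0)
    (hmax : ∀ y, φ y ≠ 0 → ∑ p, (y p : ℕ) ^ 2 ≤ ∑ p, (x p : ℕ) ^ 2) {i j : Fin m} (hij : i < j) :
    (x i : ℕ) + 3 ≤ x j ∨ (x j : ℕ) + 3 ≤ x i := by
  by_contra hgap
  have hswap : φ (x ∘ swap i j) = -φ x := by
    rw [hf, Perm.sign_swap hij.ne]; simp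
  have hne : x i ≠ x j := fun h => hx <| by
    have hfix : x ∘ swap i j = x := funext fun p => by
      by_cases hpi : p = i
      · subst hpi; simp [h]
      by_cases hpj : p = j
      · subst hpj; simp [h]
      · simp [swap_apply_of_ne_of_ne hpi hpj]
    rw [hfix] at hswap
    linarith
  have hcomp : update (update x i (x j)) j (x i) = x ∘ swap i j := funext fun p => by
    by_cases hpj : p = j
    · subst hpj; simp
    by_cases hpi : p = i
    · subst hpi; simp [update_of_ne hpj]
    · simp [update_of_ne hpj, update_of_ne hpi, swap_apply_of_ne_of_ne hpi hpj]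
  have hself : update (update x i (x i)) j (x j) = x := by simp
  have hne' : (x i : ℕ) ≠ x j := fun h => hne (Fin.ext h)
  have hz : ∀ k l : Fin (Q + 1), (k, l) ≠ (x i, x j) → (k, l) ≠ (x j, x i) →
      pairVec Q ((x i : ℕ) + x j) k l * φ (update (update x i k) j l) = 0 := by
    intro k l h1 h2
    by_cases hs : (k : ℕ) + l = (x i : ℕ) + x j
    swap
    · simp [pairVec, hs]
    by_cases hkl : (k : ℕ) = l
    · simp [pairVec, hkl]
    rw [mul_eq_zero]
    refine Or.inr (not_not.1 fun hy => ?_)
    have hle := hmax _ hy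
    have e : ∀ z : Orbs m Q, ∑ p, (z p : ℕ) ^ 2 = (z i : ℕ) ^ 2 + ((z j : ℕ) ^ 2
        + ∑ p ∈ (Finset.univ.erase i).erase j, (z p : ℕ) ^ 2) := fun z => by
      rw [← Finset.add_sum_erase _ _ (Finset.mem_univ i),
        ← Finset.add_sum_erase _ _ (Finset.mem_erase.2 ⟨hij.ne', Finset.mem_univ j⟩)]
    have hrest : ∑ p ∈ (Finset.univ.erase i).erase j, (update (update x i k) j l p : ℕ) ^ 2
        = ∑ p ∈ (Finset.univ.erase i).erase j, (x p : ℕ) ^ 2 :=
      Finset.sum_congr rfl fun p hp => by
        simp only [Finset.mem_erase] at hp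
        rw [update_of_ne hp.1, update_of_ne hp.2.1]
    rw [e, e x, hrest, update_of_ne hij.ne, update_self, update_self] at hle
    have hd1 : ¬((k : ℕ) = x i ∧ (l : ℕ) = x j) := fun h => h1 (by simp [Fin.ext_iff, h.1, h.2])
    have hd2 : ¬((k : ℕ) = x j ∧ (l : ℕ) = x i) := fun h => h2 (by simp [Fin.ext_iff, h.1, h.2])
    rcases (by omega : (x i : ℕ) = x j + 1 ∨ (x i : ℕ) = x j + 2 ∨ (x j : ℕ) = x i + 1 ∨
        (x j : ℕ) = x i + 2) with h | h | h | h <;>
      rcases lt_or_gt_of_ne hkl with hlt | hlt <;>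
      obtain ⟨d, hd⟩ := Nat.exists_eq_add_of_le hlt.le <;>
      rw [hd, h] at hle <;>
      · have hd3 : 3 ≤ d := by omega
        nlinarith
  have hsum := hamp i j hij ((x i : ℕ) + x j) x
  rw [amp, ← Fintype.sum_prod_type'
    (fun k l => pairVec Q ((x i : ℕ) + x j) k l * φ (update (update x i k) j l)),
    Fintype.sum_eq_add (x i, x j) (x j, x i) (by simp [hne])
      (fun p hp => hz p.1 p.2 hp.1 hp.2)] at hsum
  simp only [hcomp, hself, hswap] at hsum
  have hpv : pairVec Q ((x i : ℕ) + x j) (x j) (x i) = -pairVec Q ((x i : ℕ) + x j) (x i) (x j) := by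
    simp only [pairVec, add_comm ((x j : ℕ)) (x i : ℕ), if_true]
    rw [mul_comm ((Q.choose (x j : ℕ) : ℝ))]
    ring
  have hpv0 : pairVec Q ((x i : ℕ) + x j) (x i) (x j) ≠ 0 := by
    simp only [pairVec, if_true]
    refine mul_ne_zero (Real.sqrt_pos.2 (mul_pos ?_ ?_)).ne' (sub_ne_zero.2 ?_)
    · exact Nat.cast_pos.2 (Nat.choose_pos (Nat.lt_succ_iff.1 (x i).2))
    · exact Nat.cast_pos.2 (Nat.choose_pos (Nat.lt_succ_iff.1 (x j).2))
    · exact_mod_cast hne'.symm
  rw [hpv] at hsum
  exact mul_ne_zero hpv0 hx (by linarith)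

/-- A configuration in `[0, 3 (m - 1)]` with all gaps at least three is a permuted staircase. -/
lemma eq_stair (x : Orbs m (3 * (m - 1)))
    (hgap : ∀ i j : Fin m, i ≠ j → (x i : ℕ) + 3 ≤ x j ∨ (x j : ℕ) + 3 ≤ x i) :
    ∃ e : Perm (Fin m), x = stair m ∘ e := by
  have hb : ∀ i : Fin m, (x i : ℕ) / 3 < m := fun i => by have := (x i).2; have := i.2; omega
  have hb' : ∀ i : Fin m, ((x i : ℕ) + 2) / 3 < m := fun i => by
    have := (x i).2; have := i.2; omega
  have key : ∀ f : Fin m → Fin m, Injective f → ∑ i, (f i : ℕ) = ∑ i : Fin m, (i : ℕ) :=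
    fun f hf => Equiv.sum_comp (Equiv.ofBijective f hf.bijective_of_finite) fun i => (i : ℕ)
  have hi1 : Injective fun i => (⟨_, hb i⟩ : Fin m) := fun i j h => by
    by_contra hne
    have := hgap i j hne
    simp only [Fin.mk.injEq] at h
    omega
  have hi2 : Injective fun i => (⟨_, hb' i⟩ : Fin m) := fun i j h => by
    by_contra hne
    have := hgap i j hne
    simp only [Fin.mk.injEq] at h
    omega
  have heq : ∑ i, (x i : ℕ) / 3 = ∑ i, ((x i : ℕ) + 2) / 3 := (key _ hi1).trans (key _ hi2).symm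
  rw [Finset.sum_eq_sum_iff_of_le (fun i _ => by omega)] at heq
  refine ⟨Equiv.ofBijective _ hi1.bijective_of_finite, funext fun i => Fin.ext ?_⟩
  have := heq i (Finset.mem_univ i)
  show (x i : ℕ) = 3 * ((x i : ℕ) / 3)
  omega

/-- Zero amplitudes and a zero value on the staircase force the zero state. -/
lemma eq_zero_of_stair {φ : Orbs m (3 * (m - 1)) → ℝ} (hf : IsFermionic φ)
    (hamp : ∀ i j : Fin m, i < j → ∀ s x, amp φ i j s x = 0) (h0 : φ (stair m) = 0) : φ = 0 := by
  classical
  by_contra hne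
  obtain ⟨z, hz⟩ := Function.ne_iff.1 hne
  obtain ⟨x, hx, hmax⟩ := Finset.exists_max_image (Finset.univ.filter fun y => φ y ≠ 0)
    (fun y => ∑ p, (y p : ℕ) ^ 2) ⟨z, by simpa using hz⟩
  simp only [Finset.mem_filter, Finset.mem_univ, true_and] at hx hmax
  obtain ⟨e, he⟩ := eq_stair x fun i j hij => by
    rcases lt_or_gt_of_ne hij with h | h
    · exact gap_of_extremal hf hamp hx hmax h
    · exact (gap_of_extremal hf hamp hx hmax h).symm
  exact hx (by rw [he, hf, h0, mul_zero])

/-- **The kernel**: a fermionic zero energy state is a multiple of the Laughlin vector. -/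
theorem kernel_eq {ψ : Orbs m (3 * (m - 1)) → ℝ} (hf : IsFermionic ψ) (he : energy ψ = 0) :
    ∃ c : ℝ, ψ = fun x => c * laughlinState m x := by
  set c := ψ (stair m) / laughlinState m (stair m) with hc
  refine ⟨c, ?_⟩
  have h := eq_zero_of_stair (φ := fun x => ψ x - c * laughlinState m x) ?_ ?_ ?_
  · funext x
    exact sub_eq_zero.1 (congrFun h x)
  · intro e x
    show _ - _ = _
    rw [hf e x, laughlin_fermionic m e x]
    ring
  · intro i j hij s x
    have h1 := amp_eq_zero_of_energy he hij s x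
    have h2 := amp_laughlin hij.ne s x
    unfold amp at h1 h2 ⊢
    simp only [mul_sub, Finset.sum_sub_distrib, mul_left_comm _ c, ← Finset.mul_sum]
    rw [h1, h2]
    ring
  · simp only [hc, div_mul_cancel₀ _ (laughlin_stair_pos m), sub_self]

end Vale.Agent.P359.Kernel
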