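import Vale.Agent.P359.Upper.Defs

/-!
# P359: the pair vectors form the spin `Q - 1` multiplet

In the orbital basis of spin `Q / 2` the raising operator sends orbital `k` to orbital `k + 1` with
coefficient `√((k + 1) (Q - k))`, and the weight of orbital `k` is `k - Q / 2`. The pair vector
with `s = 1` has weight `1 - Q` and is killed by lowering; raising carries it through all of
`s = 1, …, 2 Q - 1`.
-/

noncomputable section

open Finset

namespace Vale.Agent.P359.Spin

open Upper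

/-- The matrix element of raising from orbital `k` to orbital `k + 1`. -/
def spinUp (Q k : ℕ) : ℝ := √(((k : ℝ) + 1) * ((Q - k : ℕ) : ℝ))

/-- Raising on two particles. -/
def raisePair (Q : ℕ) (f : Fin (Q + 1) → Fin (Q + 1) → ℝ) (k l : Fin (Q + 1)) : ℝ :=
  (∑ a : Fin (Q + 1), if (a : ℕ) + 1 = (k : ℕ) then spinUp Q a * f a l else 0)
    + ∑ b : Fin (Q + 1), if (b : ℕ) + 1 = (l : ℕ) then spinUp Q b * f k b else 0

/-- Lowering on two particles. -/
def lowerPair (Q : ℕ) (f : Fin (Q + 1) → Fin (Q + 1) → ℝ) (k l : Fin (Q + 1)) : ℝ :=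
  (∑ a : Fin (Q + 1), if (k : ℕ) + 1 = (a : ℕ) then spinUp Q k * f a l else 0)
    + ∑ b : Fin (Q + 1), if (l : ℕ) + 1 = (b : ℕ) then spinUp Q l * f k b else 0

lemma spinUp_mul_sqrt (Q a : ℕ) (c : ℝ) :
    spinUp Q a * √((Q.choose a : ℝ) * c) = ((a : ℝ) + 1) * √((Q.choose (a + 1) : ℝ) * c) := by
  have h : ((a : ℝ) + 1) * ((Q - a : ℕ) : ℝ) * ((Q.choose a : ℝ) * c)
      = ((a : ℝ) + 1) ^ 2 * ((Q.choose (a + 1) : ℝ) * c) := by
    have := congrArg (fun n : ℕ => (n : ℝ)) (Nat.choose_succ_right_eq Q a)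
    simp only [Nat.cast_mul, Nat.cast_add, Nat.cast_one] at this
    linear_combination (-((a : ℝ) + 1) * c) * this
  rw [spinUp, ← Real.sqrt_mul (by positivity), h, Real.sqrt_mul (by positivity),
    Real.sqrt_sq (by positivity)]

lemma raise_left (Q s : ℕ) (k l : Fin (Q + 1)) :
    (∑ a : Fin (Q + 1), if (a : ℕ) + 1 = (k : ℕ) then spinUp Q a * pairVec Q s a l else 0)
      = if (k : ℕ) + l = s + 1 then
          √((Q.choose k : ℝ) * Q.choose l) * (k : ℝ) * ((l : ℝ) - k + 1) else 0 := by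
  rcases Nat.eq_zero_or_pos (k : ℕ) with hk | hk
  · simp [hk]
  obtain ⟨a, ha⟩ : ∃ a : Fin (Q + 1), (a : ℕ) + 1 = (k : ℕ) :=
    ⟨⟨(k : ℕ) - 1, by omega⟩, by simp; omega⟩
  rw [Finset.sum_eq_single a (fun b _ hb => if_neg fun h => hb (Fin.ext (by omega)))
    (fun h => absurd (mem_univ a) h), if_pos ha]
  have hr : ((k : ℕ) : ℝ) = (a : ℕ) + 1 := by exact_mod_cast ha.symm
  by_cases hs : (k : ℕ) + l = s + 1
  · rw [if_pos hs, pairVec, if_pos (by omega), ← mul_assoc, spinUp_mul_sqrt, ha, hr]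
    ring
  · rw [if_neg hs, pairVec, if_neg (by omega), mul_zero]

lemma pairVec_flip (Q s : ℕ) (k l : Fin (Q + 1)) : pairVec Q s k l = -pairVec Q s l k := by
  simp only [pairVec, add_comm (l : ℕ), mul_comm (Q.choose (l : ℕ) : ℝ)]
  split_ifs <;> ring

/-- The pair vectors with `s = 1, 2, …` are the raising orbit of a vector killed by lowering. -/
theorem pairVec_multiplet (Q : ℕ) :
    lowerPair Q (pairVec Q 1) = 0 ∧
      ∀ s, raisePair Q (pairVec Q s) = (s : ℝ) • pairVec Q (s + 1) := by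
  refine ⟨?_, fun s => ?_⟩
  · funext k l
    by_cases h0 : (k : ℕ) = 0 ∧ (l : ℕ) = 0
    · obtain ⟨hk, hl⟩ := h0
      simp only [lowerPair, Pi.zero_apply, hk, hl, ← sum_add_distrib]
      refine sum_eq_zero fun a _ => ?_
      split_ifs with h
      · rw [← mul_add, pairVec_flip Q 1 a l, show k = l from Fin.ext (hk.trans hl.symm)]
        simp
      · simp
    · simp only [lowerPair, Pi.zero_apply]
      have hz : ∀ a b : Fin (Q + 1), (a : ℕ) + b ≠ 1 → pairVec Q 1 a b = 0 := fun a b h =>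
        if_neg h
      rw [sum_eq_zero fun a _ => ?_, sum_eq_zero fun b _ => ?_, add_zero]
      · split_ifs with h
        · rw [hz _ _ (by omega), mul_zero]
        · rfl
      · split_ifs with h
        · rw [hz _ _ (by omega), mul_zero]
        · rfl
  · funext k l
    have h2 : (∑ b : Fin (Q + 1), if (b : ℕ) + 1 = (l : ℕ) then spinUp Q b * pairVec Q s k b else 0)
        = -(if (l : ℕ) + k = s + 1 then
          √((Q.choose l : ℝ) * Q.choose k) * (l : ℝ) * ((k : ℝ) - l + 1) else 0) := by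
      rw [← raise_left, ← sum_neg_distrib]
      exact sum_congr rfl fun b _ => by rw [pairVec_flip Q s k b]; split_ifs <;> ring
    rw [raisePair, raise_left, h2, Pi.smul_apply, Pi.smul_apply, smul_eq_mul, pairVec]
    simp only [add_comm (l : ℕ), mul_comm (Q.choose (l : ℕ) : ℝ)]
    split_ifs with h
    · have : ((k : ℕ) : ℝ) + (l : ℕ) = (s : ℝ) + 1 := by exact_mod_cast h
      linear_combination (√((Q.choose (k : ℕ) : ℝ) * Q.choose (l : ℕ)) * ((l : ℝ) - k)) * this
    · ring

end Vale.Agent.P359.Spin
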